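import Vale.Agent.P352G.Defs
import Vale.Agent.P352X.Api3a
import Vale.Agent.P352X.Kin.Tr

/-!
# P352G, row GENL: generators of the Lorentz group
-/

set_option linter.all false

noncomputable section

namespace Vale.Agent.P352G95

open Vale.Agent.P352 Vale.Agent.P352.GF Vale.Agent.P352.BW Vale.Agent.P352.H246 Vale.Agent.P352.H496
open Vale.Agent.P352.H15 Vale.Agent.P352X Vale.Agent.P352G Vale.Agent.P352.H755
open Vale.Agent.P352.H746 (nrt sim_nrt isLor_nrt nrt_fix)

/-- the groups `AN` are closed under inverses -/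
theorem an_linv {a : V} {N : Ix → V} (ha : IsNull a) (hN : IsLor N) (h : AN a N) :
    AN a (linv N) := by
  obtain ⟨c, hc⟩ := h a ha.1
  have h1 : sim 1 N 0 a = (1 + c) • a := by rw [hc, add_smul, one_smul]
  have h2 : (1 + c) • sim 1 (linv N) 0 a = a := by
    rw [← simL_smul, ← h1, linv_sim _ hN]
  have h3 : 1 + c ≠ 0 := by
    intro h0
    rw [h0, zero_smul] at h2
    have := ha.2
    rw [← h2] at this
    exact lt_irrefl _ this
  have h4 : sim 1 (linv N) 0 a = (1 + c)⁻¹ • a := by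
    conv_rhs => rw [← h2]
    rw [smul_smul, inv_mul_cancel₀ h3, one_smul]
  intro x hx
  obtain ⟨d, hd⟩ := h x hx
  refine ⟨-(d * (1 + c)⁻¹), ?_⟩
  have h5 := linv_sim x hN
  rw [hd, simL_add, simL_smul, h4, smul_smul] at h5
  rw [neg_smul, ← sub_eq_add_neg, eq_sub_iff_add_eq, h5]

theorem an_one (a : V) : AN a GF.one := fun x _ => ⟨0, by
  rw [H26.sim_one0, zero_smul, add_zero]⟩

theorem an_nrt (a w : V) : AN a (nrt a w) := fun x hx => ⟨-(2 * GF.mdot w x), by
  rw [sim_nrt, hx]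
  simp [sub_eq_add_neg]⟩

theorem an_bst (a b : V) (α β : ℝ) : AN a (bst a b α β) := fun x hx => ⟨α * GF.mdot b x, by
  rw [sim_bst, hx]
  simp⟩

theorem null_eq {z : V} (h : IsNull z) : 2 * al z * be z = d2 (tx z) (tx z) := by
  have h1 : mu z = 0 := h.1
  rw [mu_eq] at h1
  linarith

theorem null_nonneg {z : V} (h : IsNull z) : 0 ≤ al z ∧ 0 ≤ be z := by
  have h1 := null_eq h
  have h2 := d2_nonneg (tx z)
  have h3 := h.2
  rw [time_eq z] at h3
  constructor
  · by_contra h4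
    push Not at h4
    nlinarith
  · by_contra h4
    push Not at h4
    nlinarith

/-- a null rotation that makes the `a` component positive -/
theorem step1 {z : V} (h : IsNull z) : ∃ N, IsLor N ∧ AN va N ∧ 0 < al (sim 1 N 0 z) := by
  rcases (null_nonneg h).1.lt_or_eq with h1 | h1
  · exact ⟨GF.one, H496.isLor_one, an_one _, by rwa [H26.sim_one0]⟩
  · have h2 := null_eq h
    rw [← h1, mul_zero, zero_mul, eq_comm, d2_eq_zero] at h2
    have h3 := h.2
    rw [time_eq z, ← h1] at h3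
    refine ⟨nrt va (ex 0), isLor_nrt null_va (be_ex 0), an_nrt _ _, ?_⟩
    rw [sim_nrt, md_ex, md_ex, md_va, h2]
    simp only [al_sub, al_add, al_smul, al_va, al_ex, tx_ex, e2_self, ← h1, Pi.zero_apply]
    linarith

/-- a null rotation that moves `z` to the ray of `a` -/
theorem step2 {z : V} (h : IsNull z) (h1 : 0 < al z) :
    ∃ N, IsLor N ∧ AN vb N ∧ sim 1 N 0 z = al z • va := by
  have hw : GF.mdot vb (tv ((-(2 * al z)⁻¹) • tx z)) = 0 := al_tv _
  have hL := isLor_nrt null_vb hw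
  refine ⟨_, hL, an_nrt _ _, ?_⟩
  have h2 := null_eq (isNull_lor hL h)
  have e1 : al (sim 1 (nrt vb (tv ((-(2 * al z)⁻¹) • tx z))) 0 z) = al z := by
    rw [sim_nrt]; simp
  have e2 : tx (sim 1 (nrt vb (tv ((-(2 * al z)⁻¹) • tx z))) 0 z) = 0 := by
    rw [sim_nrt, md_vb]
    simp only [tx_sub, tx_add, tx_smul, tx_vb, tx_tv, smul_zero, sub_zero, smul_smul]
    rw [mul_neg, mul_inv_cancel₀ (by positivity), neg_one_smul, add_neg_cancel]
  rw [e1, e2, d2_zero] at h2
  refine null_ext (by rw [e1]; simp) ?_ (by rw [e2]; simp)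
  rw [be_smul, be_va, mul_zero]
  exact (mul_eq_zero.1 h2).resolve_left (by positivity)

/-- a boost that normalizes -/
theorem step3 {r : ℝ} (hr : 0 < r) : ∃ N, IsLor N ∧ AN va N ∧ sim 1 N 0 (r • va) = va := by
  refine ⟨bst va vb (r⁻¹ - 1) (r - 1), isLor_bst null_va null_vb md_ab ?_ ?_, an_bst _ _ _ _, ?_⟩
  · rw [add_sub_cancel]; positivity
  · rw [add_sub_cancel, add_sub_cancel, inv_mul_cancel₀ hr.ne']
  · rw [sim_bst, md_vb, md_va, al_smul, be_smul, al_va, be_va, mul_zero, mul_zero, zero_smul,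
      add_zero, ← add_smul, mul_one, sub_mul, inv_mul_cancel₀ hr.ne', one_mul, add_sub_cancel,
      one_smul]

/-- a null rotation that fixes `a` and moves `z` to `b` -/
theorem step4 {z : V} (h : IsNull z) (h1 : be z = 1) :
    ∃ N, IsLor N ∧ AN va N ∧ sim 1 N 0 va = va ∧ sim 1 N 0 z = vb := by
  have hw : GF.mdot va (tv ((-(2 : ℝ)⁻¹) • tx z)) = 0 := be_tv _
  have hL := isLor_nrt null_va hw
  refine ⟨_, hL, an_nrt _ _, nrt_fix null_va hw, ?_⟩
  have h2 := null_eq (isNull_lor hL h)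
  have e1 : be (sim 1 (nrt va (tv ((-(2 : ℝ)⁻¹) • tx z))) 0 z) = 1 := by
    rw [sim_nrt]; simp [h1]
  have e2 : tx (sim 1 (nrt va (tv ((-(2 : ℝ)⁻¹) • tx z))) 0 z) = 0 := by
    rw [sim_nrt, md_va, h1]
    simp only [tx_sub, tx_add, tx_smul, tx_va, tx_tv, smul_zero, sub_zero, smul_smul]
    rw [mul_one, mul_neg, mul_inv_cancel₀ (by positivity), neg_one_smul, add_neg_cancel]
  rw [e1, e2, d2_zero] at h2
  refine null_ext ?_ (by rw [e1]; simp) (by rw [e2]; simp)
  rw [al_vb]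
  linarith

/-- row GENL -/
theorem genl : GENL := by
  intro P ha hb hs hm L hL
  have red : ∀ N M, IsLor N → AN va N ∨ AN vb N → IsLor M →
      P (fun m => sim 1 N 0 (M m)) → P M := by
    intro N M hN hA hM h
    have h1 : P (linv N) := hA.elim (fun h => ha _ (isLor_linv hN) (an_linv null_va hN h))
      fun h => hb _ (isLor_linv hN) (an_linv null_vb hN h)
    have h2 := hm _ _ (isLor_linv hN) (ue_lor hN hM) h1 h
    simpa only [linv_sim _ hN] using h2
  obtain ⟨N1, l1, a1, e1⟩ := step1 (isNull_lor hL null_va)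
  refine red N1 L l1 (Or.inl a1) hL ?_
  have k1 := ue_lor l1 hL
  rw [← Kin.sim_comp] at e1
  generalize (fun m => sim 1 N1 0 (L m)) = L1 at k1 e1 ⊢
  obtain ⟨N2, l2, a2, e2⟩ := step2 (isNull_lor k1 null_va) e1
  refine red N2 L1 l2 (Or.inr a2) k1 ?_
  have k2 := ue_lor l2 k1
  rw [← Kin.sim_comp] at e2
  generalize (fun m => sim 1 N2 0 (L1 m)) = L2 at k2 e2 ⊢
  obtain ⟨N3, l3, a3, e3⟩ := step3 e1
  refine red N3 L2 l3 (Or.inl a3) k2 ?_
  have k3 := ue_lor l3 k2
  rw [← e2, ← Kin.sim_comp] at e3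
  generalize (fun m => sim 1 N3 0 (L2 m)) = L3 at k3 e3 ⊢
  have e4 : be (sim 1 L3 0 vb) = 1 := by
    rw [← md_va, ← e3, mdot_sim k3, md_ab]
  obtain ⟨N4, l4, a4, e5, e6⟩ := step4 (isNull_lor k3 null_vb) e4
  refine red N4 L3 l4 (Or.inl a4) k3 (hs _ (ue_lor l4 k3) ?_ ?_)
  · rw [Kin.sim_comp, e3, e5]
  · rw [Kin.sim_comp, e6]

end Vale.Agent.P352G95

end
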