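import Vale.Agent.P352G95.Genl
import Vale.Agent.P352X.R.JC.A1

/-!
# P352G, row JUG: linear algebra of the groups `AN`
-/

set_option linter.all false

noncomputable section

namespace Vale.Agent.P352G95

open Vale.Agent.P352 Vale.Agent.P352.GF Vale.Agent.P352.BW Vale.Agent.P352.H246 Vale.Agent.P352.H496
open Vale.Agent.P352.H15 Vale.Agent.P352X Vale.Agent.P352G Vale.Agent.P352.H755
open Vale.Agent.P352.H746 (nrt sim_nrt isLor_nrt nrt_fix)
open Vale.Agent.P352.BW.T (bq)

variable (t t' : ℝ) (w w' : R2) (z : V)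

/-! ### coordinates -/

@[simp] theorem al_na : al (sim 1 (nrt va (tv w)) 0 z) =
    al z + 2 * d2 w (tx z) + 2 * d2 w w * be z := by
  rw [sim_nrt, md_tv, md_tv, md_va]; simp
@[simp] theorem be_na : be (sim 1 (nrt va (tv w)) 0 z) = be z := by rw [sim_nrt]; simp
@[simp] theorem tx_na : tx (sim 1 (nrt va (tv w)) 0 z) = tx z + (2 * be z) • w := by
  rw [sim_nrt, md_va]; simp
@[simp] theorem be_nb : be (sim 1 (nrt vb (tv w)) 0 z) =
    be z + 2 * d2 w (tx z) + 2 * d2 w w * al z := by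
  rw [sim_nrt, md_tv, md_tv, md_vb]; simp
@[simp] theorem al_nb : al (sim 1 (nrt vb (tv w)) 0 z) = al z := by rw [sim_nrt]; simp
@[simp] theorem tx_nb : tx (sim 1 (nrt vb (tv w)) 0 z) = tx z + (2 * al z) • w := by
  rw [sim_nrt, md_vb]; simp
@[simp] theorem al_bq : al (sim 1 (bq va vb t) 0 z) = Real.exp (-(2 * Real.pi * t)) * al z := by
  rw [bq, sim_bst, md_vb, md_va]; simp; ring
@[simp] theorem be_bq : be (sim 1 (bq va vb t) 0 z) = Real.exp (2 * Real.pi * t) * be z := by
  rw [bq, sim_bst, md_vb, md_va]; simp; ring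
@[simp] theorem tx_bq : tx (sim 1 (bq va vb t) 0 z) = tx z := by rw [bq, sim_bst]; simp

theorem ee : Real.exp (-(2 * Real.pi * t)) * Real.exp (2 * Real.pi * t) = 1 := by
  rw [← Real.exp_add, neg_add_cancel, Real.exp_zero]

theorem lor_na : IsLor (nrt va (tv w)) := isLor_nrt null_va (be_tv w)
theorem lor_nb : IsLor (nrt vb (tv w)) := isLor_nrt null_vb (al_tv w)
theorem lor_bq : IsLor (bq va vb t) := isLor_bst null_va null_vb md_ab
  (by rw [add_sub_cancel]; exact Real.exp_pos _) (by rw [add_sub_cancel, add_sub_cancel, ee])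
theorem an_bq_a : AN va (bq va vb t) := an_bst _ _ _ _
theorem an_bq_b : AN vb (bq va vb t) := fun x hx => ⟨(Real.exp (2 * Real.pi * t) - 1) * be x, by
  rw [bq, sim_bst, hx, md_va]; simp⟩

/-! ### group laws -/

theorem na_na : sim 1 (nrt va (tv w)) 0 (sim 1 (nrt va (tv w')) 0 z) =
    sim 1 (nrt va (tv (w + w'))) 0 z :=
  null_ext (by simp [d2_add, d2_add_l, d2_smul, d2_comm w' w]; ring) (by simp)
    (by simp [smul_add]; abel)
theorem nb_nb : sim 1 (nrt vb (tv w)) 0 (sim 1 (nrt vb (tv w')) 0 z) =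
    sim 1 (nrt vb (tv (w + w'))) 0 z :=
  null_ext (by simp) (by simp [d2_add, d2_add_l, d2_smul, d2_comm w' w]; ring)
    (by simp [smul_add]; abel)
theorem nrt_zero (a : V) : nrt a 0 = GF.one := Kin.mat_ext fun z => by
  rw [H26.sim_one0, sim_nrt]; simp
theorem na_zero : nrt va (tv 0) = GF.one := by rw [tv_zero, nrt_zero]
theorem nb_zero : nrt vb (tv 0) = GF.one := by rw [tv_zero, nrt_zero]
theorem bq_bq : sim 1 (bq va vb t) 0 (sim 1 (bq va vb t') 0 z) = sim 1 (bq va vb (t + t')) 0 z :=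
  null_ext (by simp only [al_bq]; rw [← mul_assoc, ← Real.exp_add]; congr 2; ring)
    (by simp only [be_bq]; rw [← mul_assoc, ← Real.exp_add]; congr 2; ring) (by simp)
theorem bq_zero : bq va vb 0 = GF.one := Kin.mat_ext fun z => by
  rw [H26.sim_one0]; exact null_ext (by simp) (by simp) (by simp)

/-- the boosts scale the null rotations that fix `a` -/
theorem bq_na : sim 1 (bq va vb t) 0 (sim 1 (nrt va (tv w)) 0 z) =
    sim 1 (nrt va (tv (Real.exp (-(2 * Real.pi * t)) • w))) 0 (sim 1 (bq va vb t) 0 z) := by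
  refine null_ext ?_ (by simp) ?_
  · simp only [al_bq, al_na, be_bq, tx_bq, d2_smul, d2_smul_l]
    linear_combination (-2 * Real.exp (-(2 * Real.pi * t)) * d2 w w * be z) * ee t
  · simp only [tx_bq, tx_na, be_bq, smul_smul]
    congr 2
    linear_combination (-2 * be z) * ee t

/-- the boosts scale the null rotations that fix `b` -/
theorem bq_nb : sim 1 (bq va vb t) 0 (sim 1 (nrt vb (tv w)) 0 z) =
    sim 1 (nrt vb (tv (Real.exp (2 * Real.pi * t) • w))) 0 (sim 1 (bq va vb t) 0 z) := by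
  refine null_ext (by simp) ?_ ?_
  · simp only [al_bq, be_nb, be_bq, tx_bq, d2_smul, d2_smul_l]
    linear_combination (-2 * Real.exp (2 * Real.pi * t) * d2 w w * al z) * ee t
  · simp only [tx_bq, tx_nb, al_bq, smul_smul]
    congr 2
    linear_combination (-2 * al z) * ee t

/-! ### the reflection -/

theorem jL_ext {L M : Ix → V} (h : ∀ x, jr (sim 1 L 0 x) = sim 1 M 0 (jr x)) : jL L = M :=
  Kin.mat_ext fun x => by
    have e := JCa.sim_jL L 1 0 (jr x)
    rw [jr_jr, JCa.jr_zero] at e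
    rw [e, h, jr_jr]

theorem sim_jL0 (L : Ix → V) : sim 1 (jL L) 0 z = jr (sim 1 L 0 (jr z)) := by
  have e := JCa.sim_jL L 1 0 (jr z)
  rwa [jr_jr, JCa.jr_zero] at e

theorem jL_na : jL (nrt va (tv w)) = nrt va (tv (-w)) := jL_ext fun x =>
  null_ext (by simp [d2_neg, d2_neg_l]; ring) (by simp) (by simp)
theorem jL_nb : jL (nrt vb (tv w)) = nrt vb (tv (-w)) := jL_ext fun x =>
  null_ext (by simp) (by simp [d2_neg, d2_neg_l]; ring) (by simp)
theorem jL_bq : jL (bq va vb t) = bq va vb t := jL_ext fun x =>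
  null_ext (by simp) (by simp) (by simp)
theorem jL_mul (L L' : Ix → V) :
    jL (fun m => sim 1 L 0 (L' m)) = fun m => sim 1 (jL L) 0 (jL L' m) := jL_ext fun x => by
  rw [Kin.sim_comp, Kin.sim_comp, sim_jL0, sim_jL0, jr_jr, jr_jr]
theorem jL_jL (L : Ix → V) : jL (jL L) = L := jL_ext fun x => by rw [sim_jL0, jr_jr]

theorem jr_dec : jr z = z - (2 * al z) • va - (2 * be z) • vb :=
  null_ext (by simp; ring) (by simp; ring) (by simp)

theorem simL_sub (L : Ix → V) (x y : V) : sim 1 L 0 (x - y) = sim 1 L 0 x - sim 1 L 0 y := by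
  rw [eq_sub_iff_add_eq, ← simL_add, sub_add_cancel]

/-- the stabilizer of `a` and `b` commutes with the reflection -/
theorem jL_fix {L : Ix → V} (hL : IsLor L) (ha : sim 1 L 0 va = va) (hb : sim 1 L 0 vb = vb) :
    jL L = L := jL_ext fun x => by
  have h1 : al (sim 1 L 0 x) = al x := by rw [← md_vb, ← md_vb, ← mdot_sim hL vb x, hb]
  have h2 : be (sim 1 L 0 x) = be x := by rw [← md_va, ← md_va, ← mdot_sim hL va x, ha]
  rw [jr_dec x, simL_sub, simL_sub, simL_smul, simL_smul, ha, hb, jr_dec, h1, h2]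

theorem an_jL_a {L : Ix → V} (h : AN va L) : AN va (jL L) := fun x hx => by
  obtain ⟨c, hc⟩ := h (jr x) (by rw [md_va] at hx ⊢; simp [hx])
  exact ⟨-c, by rw [sim_jL0, hc]; exact null_ext (by simp [add_comm]) (by simp) (by simp)⟩

theorem an_jL_b {L : Ix → V} (h : AN vb L) : AN vb (jL L) := fun x hx => by
  obtain ⟨c, hc⟩ := h (jr x) (by rw [md_vb] at hx ⊢; simp [hx])
  exact ⟨-c, by rw [sim_jL0, hc]; exact null_ext (by simp) (by simp [add_comm]) (by simp)⟩

/-! ### the decomposition -/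

theorem lin_ext {L : Ix → V} {F : V → V} (hF : ∀ x y, F (x + y) = F x + F y)
    (hs : ∀ (c : ℝ) x, F (c • x) = c • F x) (ha : sim 1 L 0 va = F va) (hb : sim 1 L 0 vb = F vb)
    (ht : ∀ u, sim 1 L 0 (tv u) = F (tv u)) (x : V) : sim 1 L 0 x = F x := by
  rw [null_dec x, simL_add, simL_add, simL_smul, simL_smul, hF, hF, hs, hs, ha, hb, ht]

theorem ex_exp {r : ℝ} (hr : 0 < r) : ∃ t, Real.exp (2 * Real.pi * t) = r :=
  ⟨Real.log r / (2 * Real.pi), by rw [mul_div_cancel₀ _ (by positivity), Real.exp_log hr]⟩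

/-- the elements of `AN a` are products of boosts and null rotations -/
theorem an_dec_a {L : Ix → V} (hL : IsLor L) (h : AN va L) : ∃ t w, ∀ x,
    sim 1 L 0 x = sim 1 (bq va vb t) 0 (sim 1 (nrt va (tv w)) 0 x) := by
  obtain ⟨c, hc⟩ := h va be_va
  have hz := isNull_lor hL null_vb
  have h1 : (1 + c) * be (sim 1 L 0 vb) = 1 := by
    have := mdot_sim hL va vb
    rw [hc, md_add_l, md_smul_l, md_va, md_ab] at this
    linarith
  have h2 : 0 < be (sim 1 L 0 vb) := (null_nonneg hz).2.lt_of_ne fun e => by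
    rw [← e] at h1; norm_num at h1
  obtain ⟨t, ht⟩ := ex_exp h2
  have h3 := ee t
  rw [ht] at h3
  have h4 : Real.exp (-(2 * Real.pi * t)) = 1 + c := mul_right_cancel₀ h2.ne' (h3.trans h1.symm)
  refine ⟨t, (2⁻¹ : ℝ) • tx (sim 1 L 0 vb), lin_ext (fun x y => by rw [simL_add, simL_add])
    (fun c x => by rw [simL_smul, simL_smul]) ?_ ?_ fun u => ?_⟩
  · rw [hc]
    exact null_ext (by simp [h4]) (by simp) (by simp)
  · refine null_ext ?_ (by simp [ht]) (by simp [smul_smul])
    have h5 := null_eq hz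
    simp only [al_bq, al_na, al_vb, tx_vb, be_vb, d2_smul, d2_smul_l, d2_zero, h4]
    linear_combination (-al (sim 1 L 0 vb)) * h1 + (1 + c) / 2 * h5
  · obtain ⟨d, hd⟩ := h (tv u) (be_tv u)
    have h5 := mdot_sim hL (tv u) vb
    rw [hd, md_add_l, md_smul_l, md_va, md_tv, md_tv, tx_vb, d2_zero] at h5
    rw [hd]
    refine null_ext ?_ (by simp) (by simp)
    simp only [al_bq, al_na, al_add, al_smul, al_va, al_tv, tx_tv, be_tv, d2_smul_l, h4,
      d2_comm (tx _) u]
    linear_combination (-d) * h1 + (1 + c) * h5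

/-- the elements of `AN b` are products of boosts and null rotations -/
theorem an_dec_b {L : Ix → V} (hL : IsLor L) (h : AN vb L) : ∃ t w, ∀ x,
    sim 1 L 0 x = sim 1 (bq va vb t) 0 (sim 1 (nrt vb (tv w)) 0 x) := by
  obtain ⟨c, hc⟩ := h vb al_vb
  have hz := isNull_lor hL null_va
  have h1 : (1 + c) * al (sim 1 L 0 va) = 1 := by
    have := mdot_sim hL vb va
    rw [hc, md_add_l, md_smul_l, md_vb, md_vb, al_va] at this
    linarith
  have h2 : 0 < al (sim 1 L 0 va) := (null_nonneg hz).1.lt_of_ne fun e => by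
    rw [← e] at h1; norm_num at h1
  have h0 : 0 < 1 + c := by
    by_contra h5
    push Not at h5
    nlinarith
  obtain ⟨t, h4⟩ := ex_exp h0
  have h3 := ee t
  rw [h4, mul_comm] at h3
  have ht : Real.exp (-(2 * Real.pi * t)) = al (sim 1 L 0 va) :=
    mul_left_cancel₀ h0.ne' (h3.trans h1.symm)
  refine ⟨t, (2⁻¹ : ℝ) • tx (sim 1 L 0 va), lin_ext (fun x y => by rw [simL_add, simL_add])
    (fun c x => by rw [simL_smul, simL_smul]) ?_ ?_ fun u => ?_⟩
  · refine null_ext (by simp [ht]) ?_ (by simp [smul_smul])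
    have h5 := null_eq hz
    simp only [be_bq, be_nb, al_va, tx_va, be_va, d2_smul, d2_smul_l, d2_zero, h4]
    linear_combination (-be (sim 1 L 0 va)) * h1 + (1 + c) / 2 * h5
  · rw [hc]
    exact null_ext (by simp) (by simp [h4]) (by simp)
  · obtain ⟨d, hd⟩ := h (tv u) (al_tv u)
    have h5 := mdot_sim hL (tv u) va
    rw [hd, md_add_l, md_smul_l, md_vb, md_tv, md_tv, tx_va, d2_zero] at h5
    rw [hd]
    refine null_ext (by simp) ?_ (by simp)
    simp only [be_bq, be_nb, be_add, be_smul, be_vb, al_tv, tx_tv, be_tv, d2_smul_l, h4,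
      d2_comm (tx _) u]
    linear_combination (-d) * h1 + (1 + c) * h5

end Vale.Agent.P352G95

end
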